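import Vale.Agent.P251EJ.DefsA
import Mathlib.RingTheory.MvPolynomial.WeightedHomogeneous
import Mathlib.Data.Finsupp.Encodable

/-!
# P251EJ, row `AsmA`: the assembly of the algebraic block
-/

open MvPolynomial

noncomputable section

namespace Vale.Agent.P251EJ37

open Vale.Agent.P221.T Vale.Agent.P221.T.H520 Vale.Agent.P251EJ

/-! ### countability -/

theorem countable_loc {R : Type} [CommRing R] [Countable R] (S : Submonoid R) :
    Countable (Localization S) := by
  refine Function.Surjective.countable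
    (f := fun x : R × S => Localization.mk x.1 x.2) fun z => ?_
  induction z using Localization.induction_on with
  | H y => exact ⟨y, rfl⟩

theorem countable_mv (R : Type) [CommRing R] [Countable R] : Countable (MvPolynomial ℕ R) := by
  refine Function.Surjective.countable
    (f := fun x : (ℕ →₀ ℕ) →₀ R => (AddMonoidAlgebra.ofCoeff x : MvPolynomial ℕ R)) fun z => ?_
  exact ⟨AddMonoidAlgebra.coeff z, rfl⟩

theorem countable_QL {R : Type} [CommRing R] [Countable R] (J : Ideal R) (w : R) :
    Countable (QL J w) := by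
  have : Countable (R ⧸ J) := Ideal.Quotient.mk_surjective.countable
  exact countable_loc _

/-! ### gradings -/

/-- a grading by submodules, read as a grading by additive subgroups -/
@[reducible] def grSub {R A : Type} [CommRing R] [CommRing A] [Algebra R A]
    (𝒜 : ℤ → Submodule R A) [h : GradedRing 𝒜] : GradedRing fun d => (𝒜 d).toAddSubgroup where
  one_mem := h.one_mem
  mul_mem := fun _ _ _ _ ha hb => h.mul_mem ha hb
  decompose' := h.decompose'
  left_inv := h.left_inv
  right_inv := h.right_inv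

/-- cancellation of a homogeneous unit -/
theorem mem_of_unit_mul {A : Type} [CommRing A] (H : ℤ → AddSubgroup A) [GradedRing H] {u b : A}
    {m d : ℤ} (hu : IsUnit u) (hm : u ∈ H m) (hb : u * b ∈ H (m + d)) : b ∈ H d := by
  have h1 := DirectSum.coe_decompose_mul_add_of_left_mem (𝒜 := H) (j := d) (b := b) hm
  rw [DirectSum.decompose_of_mem_same H hb] at h1
  rw [hu.mul_left_cancel h1]
  exact (DirectSum.decompose H b d).2

theorem pow_mem_mul {A : Type} [CommRing A] (H : ℤ → AddSubgroup A) [GradedRing H] {u : A}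
    {m : ℤ} (hm : u ∈ H m) (j : ℕ) : u ^ j ∈ H (j * m) := by
  have h := SetLike.pow_mem_graded j hm
  rwa [nsmul_eq_mul] at h

variable (p : ℕ) [hp : Fact p.Prime]

theorem countable_K0 : Countable (K0 p) := by
  have : Countable (Z0 p) := countable_loc (Zs p)
  exact countable_mv _

theorem countable_AA (n : ℕ) : Countable (AA p n) := by
  have := countable_K0 p
  have : Countable (G0 p) := countable_mv _
  exact countable_QL _ _

theorem sV_wz (i : ℕ) : sV p (i + 1) = 2 * wz p i := sV_eq i

variable {p}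

theorem hK_two {d : ℤ} {c : K0 p} (hc : hK p d c) :
    c.IsWeightedHomogeneous (fun i => sV p (i + 1)) (2 * d) := by
  intro E hE
  have h := hc hE
  rw [← h, Finsupp.weight_apply, Finsupp.weight_apply, Finsupp.sum, Finsupp.sum, Finset.mul_sum]
  refine Finset.sum_congr rfl fun i _ => ?_
  rw [sV_wz, nsmul_eq_mul, nsmul_eq_mul]
  ring

theorem HG_C {d : ℤ} {c : K0 p} (hc : hK p d c) : HG p (2 * d) (C c) := by
  classical
  intro E
  rw [coeff_C]
  split_ifs with h
  · rw [← h]
    have h1 : 2 * d - dT p (0 : ℕ →₀ ℕ) = 2 * d := by simp [dT]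
    rw [h1]
    exact hK_two hc
  · exact isWeightedHomogeneous_zero _ _ _

theorem eta0_HG' (i : ℕ) : HG p (2 * wz p i) (eta0 p i) := by
  rw [← sV_wz]
  exact eta0_HG p i

variable (p)

theorem isUnit_qA (n : ℕ) : IsUnit (qA p n (eta0 p n)) :=
  IsLocalization.Away.algebraMap_isUnit (S := AA p n) (Ideal.Quotient.mk (JJ p n) (eta0 p n))

/-- **Row `AsmA`.** -/
theorem asmA (n : ℕ) : AsmA p n := by
  intro laz flat gra tau
  obtain ⟨H, gr, q_mem, hH⟩ := gra
  obtain ⟨τ, τ_q, τ_C, τ_X, τ_τ, gen, ker⟩ := tau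
  have := countable_K0 p
  have := countable_AA p n
  let _ : GradedRing (weightedHomogeneousSubmodule (Z0 p) (wz p)) :=
    weightedGradedAlgebra (Z0 p) (wz p)
  let _ := grSub (weightedHomogeneousSubmodule (Z0 p) (wz p))
  obtain ⟨P⟩ := laz (K0 p) (AA p n)
    (fun d => (weightedHomogeneousSubmodule (Z0 p) (wz p) d).toAddSubgroup) H ((qA p n).comp C)
    (fun d r hr => q_mem d _ (HG_C hr)) flat
  have hw : τ (qA p n (eta0 p n)) = qA p n (eta0 p n) := by
    rw [← τ_C n, τ_τ]
  refine ⟨{
    A := AA p n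
    H := H
    q := qA p n
    q_mem := q_mem
    τ := τ
    τ_mem := fun d a ha => ?_
    τ_C := τ_C
    τ_X := τ_X
    τ_τ := τ_τ
    unit := isUnit_qA p n
    gen := gen
    ker := ker
    pres := P }⟩
  obtain ⟨j, x, hx, e⟩ := hH d a ha
  obtain ⟨y, hy, e'⟩ := τ_q _ x hx
  have e2 : qA p n (eta0 p n) ^ j * τ a = qA p n y := by
    rw [← e', ← e, map_mul, map_pow, hw]
  refine mem_of_unit_mul H ((isUnit_qA p n).pow j)
    (pow_mem_mul H (q_mem _ _ (eta0_HG' n)) j) ?_
  rw [e2, add_comm]
  exact q_mem _ y hy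

end Vale.Agent.P251EJ37
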